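import Vale.Agent.P110.Exist.Final
import Vale.Agent.P110.Exist.Analysis.Main
import Vale.Agent.P110.Exist.Fill.Main
import Vale.Agent.P110.Exist.Folner
import Vale.Agent.P110.Exist.Design.Main
import Vale.Agent.P110.Exist.Design.Params
import Vale.Agent.P110.Exist.Design.Count
import Vale.Agent.P110.Exist.Design.Realise
import Vale.Agent.P110.Exist.Design.Disjoint
import Vale.Agent.P110.Exist.Design.Fibre

namespace Vale.Agent.Results.P110.UltraflatExistence

open Vale.Agent.P110.Exist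

/-- Ultraflat Littlewood polynomials with real coefficients exist. -/
theorem result : ∀ c : ℝ, 0 < c → ∀ N₀ : ℕ, ∃ N : ℕ, N₀ ≤ N ∧
    ∃ ε : Fin N → ℝ, (∀ k, ε k = 1 ∨ ε k = -1) ∧
      ∀ z : ℂ, ‖z‖ = 1 → (1 - c) * Real.sqrt N ≤ ‖∑ k, (ε k : ℂ) * z ^ (k : ℕ)‖ ∧
        ‖∑ k, (ε k : ℂ) * z ^ (k : ℕ)‖ ≤ (1 + c) * Real.sqrt N :=
  circle_of_ultraflatGoal (ultraflat_of_modules
    (designGoal_of_modules (params_of_folner folnerGoal) encGoal realiseGoal disjointGoal fibreGoal)
    analysisGoal Fill.fillGoal)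

end Vale.Agent.Results.P110.UltraflatExistence
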